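import Vale.Agent.Lib.P070.P.LSet

/-! # P070 part P: positive part and inverse square root inside a closed star subalgebra -/

open Filter Topology

namespace P070.P

variable {H : Type} [NormedAddCommGroup H] [InnerProductSpace ℂ H] [CompleteSpace H]

/-- positive part `b = z_+` (cfc; it lies in the closed subalgebra `C`) -/
theorem exists_posPart (C : StarSubalgebra ℂ (H →L[ℂ] H)) (hC : IsClosed (C : Set (H →L[ℂ] H)))
    {z : H →L[ℂ] H} (hz : z ∈ C) (hzs : star z = z) :
    ∃ b ∈ C, Pos b ∧ z * b = b * b ∧ ∀ ξ : H, (inner ℂ (z ξ) ξ : ℂ).re ≤ (inner ℂ (b ξ) ξ : ℂ).re := by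
  sorry

/-- an operator bounded below in the form sense is invertible
(`ContinuousLinearMap.isUnit_of_forall_le_norm_inner_map`) -/
theorem isUnit_of_bound {h : H →L[ℂ] H} {δ : ℝ} (hδ : 0 < δ)
    (hb : ∀ ξ : H, δ * ‖ξ‖ ^ 2 ≤ (inner ℂ (h ξ) ξ : ℂ).re) : IsUnit h := by
  sorry

end P070.P
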