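import Vale.Agent.Lib.P070.P.Cfc

/-! # P070 part P: the core estimate -/

open Filter Topology

namespace P070.P

variable {H : Type} [NormedAddCommGroup H] [InnerProductSpace ℂ H] [CompleteSpace H]

/-- `ε = δ^2/64`, `K` from `haL` (make it `≥ 1`), `Λ = 64 K / δ^2`, `η = min ε (δ/Λ)`; `x', D`;
`z = (x' + star x')/2 - Λ D - δ`, `re <z κ, κ> > 0`, `b = z_+ ≠ 0` (`exists_posPart`), `PI`: `w ∈ C` with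
`(b w)^*(b w) = 1`; `x = b w`: `re <z x ξ, x ξ> = re <b (b w ξ), b w ξ> ≥ 0`; so `re <x' x ξ, x ξ> ≥ δ ‖ξ‖^2 + Λ re <D x ξ, x ξ>`,
hence `re <D x ξ, x ξ> ≤ (K/Λ) ‖ξ‖^2` and `‖star (a - x') x ξ‖ ≤ (δ/4) ‖ξ‖` -/
theorem core (C : StarSubalgebra ℂ (H →L[ℂ] H)) (hC : IsClosed (C : Set (H →L[ℂ] H))) (hPI : PI C)
    {a : H →L[ℂ] H} {κ : H} (hκ : ‖κ‖ = 1) {δ : ℝ} (hδ : 0 < δ)
    (haκ : 4 * δ ≤ (inner ℂ (a κ) κ : ℂ).re) (haL : a ∈ LSet C κ) :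
    ∃ x ∈ C, star x * x = 1 ∧ ∀ ξ : H, δ / 2 * ‖ξ‖ ^ 2 ≤ (inner ℂ (a (x ξ)) (x ξ) : ℂ).re := by
  sorry

end P070.P
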