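import Vale.Agent.Lib.P070.P.LSet

/-! # P070 part P: right multiplication by `u` and `u^*` -/

open Filter Topology

namespace P070.P

variable {H : Type} [NormedAddCommGroup H] [InnerProductSpace ℂ H] [CompleteSpace H]

/-- given `x', D` for `x` (with `ε/2`, `η/4`) choose `N` with `‖R_N x'^* κ‖^2 ≤ η/4`; new `x'' = x' w_N`,
new `D'' = 2 (D + x' R_N x'^*)`: `x w - x' w_N = (x - x') w + x' R_N w = (x - x' + x' R_N) w`,
`‖star (..) ξ‖ ≤ ‖star (x - x' + x' R_N) ξ‖` -/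
theorem LSet_mul_w (C : StarSubalgebra ℂ (H →L[ℂ] H)) (κ : H) {w : H →L[ℂ] H}
    (wN R : ℕ → (H →L[ℂ] H)) (hwn : ∀ N, wN N ∈ C) (hn : ∀ N, ‖wN N‖ ≤ 1) (hR : ∀ N, R N ∈ C)
    (hRs : ∀ N, star (R N) = R N) (hRR : ∀ N, R N * R N = R N) (hw : ‖w‖ ≤ 1)
    (hsub : ∀ N, w - wN N = R N * w) (hR0 : ∀ ξ : H, Tendsto (fun n => R n ξ) atTop (𝓝 0))
    {x : H →L[ℂ] H} (hx : x ∈ LSet C κ) : x * w ∈ LSet C κ := by
  sorry

end P070.P
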