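import Vale.Agent.Lib.P070.Defs

/-! # P070 part P: the set `L` of section 2 (operator inequality form) -/

open Filter Topology

namespace P070.P

variable {H : Type} [NormedAddCommGroup H] [InnerProductSpace ℂ H] [CompleteSpace H]

/-- `D` is positive -/
def Pos (D : H →L[ℂ] H) : Prop := star D = D ∧ ∀ ξ : H, 0 ≤ (inner ℂ (D ξ) ξ : ℂ).re

/-- the set `L`: `(x - x')(x - x')^* ≤ ε + D` with `D` small at `κ` and `x'` bounded independently of `η` -/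
def LSet (C : StarSubalgebra ℂ (H →L[ℂ] H)) (κ : H) : Set (H →L[ℂ] H) :=
  {x | ∀ ε : ℝ, 0 < ε → ∃ K : ℝ, ∀ η : ℝ, 0 < η → ∃ x' ∈ C, ∃ D ∈ C, Pos D ∧ ‖x'‖ ≤ K ∧
    (inner ℂ (D κ) κ : ℂ).re ≤ η ∧
    ∀ ξ : H, ‖star (x - x') ξ‖ ^ 2 ≤ ε * ‖ξ‖ ^ 2 + (inner ℂ (D ξ) ξ : ℂ).re}

theorem LSet_of_mem (C : StarSubalgebra ℂ (H →L[ℂ] H)) (κ : H) {x : H →L[ℂ] H} (hx : x ∈ C) :
    x ∈ LSet C κ := by
  sorry

/-- use `(e1 + e2)(e1 + e2)^* ≤ 2 (e1 e1^* + e2 e2^*)`; new `D = 2 (D1 + D2)` -/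
theorem LSet_add (C : StarSubalgebra ℂ (H →L[ℂ] H)) (κ : H) {x y : H →L[ℂ] H} (hx : x ∈ LSet C κ)
    (hy : y ∈ LSet C κ) : x + y ∈ LSet C κ := by
  sorry

/-- new `x' c`, new `D = (‖c‖ + 1)^2 D` -/
theorem LSet_mul_mem (C : StarSubalgebra ℂ (H →L[ℂ] H)) (κ : H) {x c : H →L[ℂ] H}
    (hx : x ∈ LSet C κ) (hc : c ∈ C) : x * c ∈ LSet C κ := by
  sorry

theorem isClosed_LSet (C : StarSubalgebra ℂ (H →L[ℂ] H)) (κ : H) : IsClosed (LSet C κ) := by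
  sorry

end P070.P
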