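import Vale.Agent.Lib.P070.BasicA

/-! # P070 part P: partial sums of the unitary -/

open Filter Topology

namespace P070.P

variable {B : Type} [CStarAlgebra B]

/-- partial sums of the unitary -/
def uN (t v : Germ B) (N : ℕ) : B := ∑ k ∈ Finset.range N, v.t k * star (t.t k)

theorem uN_mem {C : StarSubalgebra ℂ B} {t v : Germ B} (ht : t.In C) (hv : v.In C) (N : ℕ) :
    uN t v N ∈ C :=
  sum_mem fun k _ => mul_mem (hv k) (star_mem (ht k))

/-- `u - u_N = u p_N` -/
theorem sub_uN' {t v : Germ B} {u : B} (h : ∀ k, u * t.t k = v.t k) (N : ℕ) :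
    u - uN t v N = u * t.p N := by
  unfold uN Germ.p
  rw [mul_sub, mul_one, Finset.mul_sum]
  congr 1
  refine Finset.sum_congr rfl fun k _ => ?_
  rw [← mul_assoc, h k]

/-- `u^* - u_N^* = p_N u^*` -/
theorem star_sub_uN {t v : Germ B} {u : B} (h : ∀ k, u * t.t k = v.t k)
    (N : ℕ) : star u - star (uN t v N) = t.p N * star u := by
  rw [← star_sub, sub_uN' h, star_mul, Germ.star_p]

/-- `u - u_N = q_N u` -/
theorem sub_uN {t v : Germ B} {u : B} (hu : u ∈ unitary B) (h : ∀ k, u * t.t k = v.t k) (N : ℕ) :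
    u - uN t v N = v.p N * u := by
  unfold uN Germ.p
  rw [sub_mul, one_mul, Finset.sum_mul]
  congr 1
  refine Finset.sum_congr rfl fun k _ => ?_
  have h1 : star (v.t k) * u = star (t.t k) := by
    rw [← h k, star_mul, mul_assoc, Unitary.star_mul_self_of_mem hu, mul_one]
  rw [mul_assoc, h1]

theorem norm_unitary_le {u : B} (hu : u ∈ unitary B) : ‖u‖ ≤ 1 := by
  have h2 := CStarRing.norm_star_mul_self (x := u)
  rw [Unitary.star_mul_self_of_mem hu] at h2
  rcases subsingleton_or_nontrivial B with hB | hB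
  · rw [Subsingleton.elim u 0, norm_zero]
    exact zero_le_one
  · rw [norm_one] at h2
    nlinarith [norm_nonneg u]

theorem norm_uN_le {t v : Germ B} {u : B} (hu : u ∈ unitary B) (h : ∀ k, u * t.t k = v.t k) (N : ℕ) :
    ‖uN t v N‖ ≤ 1 := by
  have h1 : uN t v N = u * (1 - t.p N) := by
    rw [mul_sub, mul_one, ← sub_uN' h]
    abel
  have h2 : star (1 - t.p N) * (1 - t.p N) = 1 - t.p N := by
    rw [star_sub, star_one, Germ.star_p, sub_mul, mul_sub, mul_sub, one_mul, mul_one, one_mul,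
      Germ.p_mul_p_of_le t le_rfl]
    abel
  have h3 := CStarRing.norm_star_mul_self (x := 1 - t.p N)
  rw [h2] at h3
  have h4 : ‖1 - t.p N‖ ≤ 1 := by
    by_contra hcon
    push Not at hcon
    nlinarith
  rw [h1]
  calc ‖u * (1 - t.p N)‖ ≤ ‖u‖ * ‖1 - t.p N‖ := norm_mul_le _ _
    _ ≤ 1 * 1 := mul_le_mul (norm_unitary_le hu) h4 (norm_nonneg _) zero_le_one
    _ = 1 := one_mul 1

end P070.P
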