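import Vale.Agent.Lib.P070.Interface
import Vale.Agent.Lib.P070.AlgG
import Vale.Agent.Lib.P070.BasicP
import Vale.Agent.Lib.P070.P.UN
import Vale.Agent.Lib.P070.P.LMul
import Vale.Agent.Lib.P070.P.Core

/-! # P070 part P: assembly -/

open Filter Topology

namespace P070

open P in
/-- `y ≠ 0` in `gen C u`, `a = star y * y`, `κ` unit with `y κ ≠ 0`, `δ = ‖y κ‖^2 / 4`; `a ∈ LSet C κ` by
`gen_induction` (`LSet_mul_w` with `wN = uN`, `R = v.p` and `wN = star uN`, `R = t.p`); `core` gives `x`;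
`isUnit_of_bound` and `exists_isometry_of_near` in `gen C u` -/
theorem partP : PartP := by
  intro H _ _ _ C t v u hS ht hv hPI y hy hy0
  -- a unit vector
  obtain ⟨κ, hκ, hyκ⟩ : ∃ κ : H, ‖κ‖ = 1 ∧ y κ ≠ 0 := by
    by_contra hcon
    push Not at hcon
    apply hy0
    ext ξ
    rw [ContinuousLinearMap.zero_apply]
    by_cases hξ : ξ = 0
    · rw [hξ, map_zero]
    · have hn : ‖ξ‖ ≠ 0 := norm_ne_zero_iff.2 hξ
      have h1 := hcon (((‖ξ‖ : ℝ) : ℂ)⁻¹ • ξ) (by
        rw [norm_smul, norm_inv, Complex.norm_real, norm_norm, inv_mul_cancel₀ hn])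
      rw [map_smul, smul_eq_zero] at h1
      rcases h1 with h1 | h1
      · exact absurd (inv_eq_zero.1 h1) (by exact_mod_cast hn)
      · exact h1
  set δ : ℝ := ‖y κ‖ ^ 2 / 4 with hδdef
  have hδ : 0 < δ := by
    have : 0 < ‖y κ‖ := norm_pos_iff.2 hyκ
    positivity
  -- `gen C u ⊆ LSet C κ`
  have hL : ∀ x ∈ gen C u, x ∈ LSet C κ := by
    refine gen_induction C u (LSet C κ) (LSet_of_mem C κ (one_mem C)) ?_ ?_ ?_ ?_
      (isClosed_LSet C κ)
    · intro x hx z hz
      exact LSet_add C κ hx hz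
    · intro x hx c hc
      exact LSet_mul_mem C κ hx hc
    · intro x hx
      exact LSet_mul_w C κ (fun N => uN t v N) (fun N => v.p N) (uN_mem hS.tIn hS.vIn)
        (norm_uN_le hS.unit hS.ut) (Germ.p_mem hS.vIn) (fun N => v.star_p N)
        (fun N => v.p_mul_p_of_le le_rfl) (norm_unitary_le hS.unit) (sub_uN hS.unit hS.ut) hv hx
    · intro x hx
      refine LSet_mul_w C κ (fun N => star (uN t v N)) (fun N => t.p N)
        (fun N => star_mem (uN_mem hS.tIn hS.vIn N)) (fun N => ?_) (Germ.p_mem hS.tIn)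
        (fun N => t.star_p N) (fun N => t.p_mul_p_of_le le_rfl)
        (norm_unitary_le (Unitary.star_mem hS.unit)) (star_sub_uN hS.ut) ht hx
      rw [norm_star]
      exact norm_uN_le hS.unit hS.ut N
  have haL : star y * y ∈ LSet C κ := hL _ (mul_mem (star_mem hy) hy)
  have hform : ∀ ξ : H, (inner ℂ ((star y * y) ξ) ξ : ℂ).re = ‖y ξ‖ ^ 2 := by
    intro ξ
    rw [ContinuousLinearMap.mul_apply, ContinuousLinearMap.star_eq_adjoint,
      ContinuousLinearMap.adjoint_inner_left, inner_self_eq_norm_sq_to_K]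
    norm_cast
  obtain ⟨x, hxC, hx1, hx2⟩ := core C hS.closed hPI hκ hδ (a := star y * y) (by
    rw [hform, hδdef]; linarith) haL
  have hxG : x ∈ gen C u := le_gen C u hxC
  refine exists_isometry_of_near (isClosed_gen C u) hy hxG ?_
  refine isUnit_of_bound (δ := δ / 2) (by positivity) ?_
  intro ξ
  have h1 := hx2 ξ
  refine h1.trans (le_of_eq ?_)
  rw [hform (x ξ)]
  have h2 : (star (y * x) * (y * x)) ξ = star (y * x) ((y * x) ξ) := rfl
  rw [h2, ContinuousLinearMap.star_eq_adjoint, ContinuousLinearMap.adjoint_inner_left,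
    inner_self_eq_norm_sq_to_K]
  have h3 : (y * x) ξ = y (x ξ) := rfl
  rw [h3]
  norm_cast

end P070
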